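import Vale.Agent.P263.TJ.SmallExt
import Vale.Agent.P263.TJ.SqMu
import Mathlib.Analysis.Convex.Topology

/-!
# P263, V5: the cohomology of a compact neighbourhood retract is finite

`FinOn U n` : the cohomology of the subset `U` in degree `n` is finite (cochains of the whole space,
modulo cochains which vanish on the simplices in `U`).

* `FinOn.union` : Mayer-Vietoris.
* `FinOn.convex`, `FinOn.biUnion` : convex sets, finite unions of open convex sets.
* `FinC M n` : finiteness for the space `M`; `FinOn.retract`.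
* `finC_of_compact` : a compact space which is a retract of an open subset of `ℝᵐ`.
-/

open Finset

namespace Vale.Agent.P263.FR

open Vale.Agent.P263.S Vale.Agent.P263.E Vale.Agent.P263.H83 Vale.Agent.P263.G2
  Vale.Agent.P263.TJ

variable {Y : Type} [TopologicalSpace Y]

/-- the cohomology of `U` in degree `n` is finite -/
def FinOn (U : Set Y) (n : ℕ) : Prop :=
  ∃ S : Finset (Cc (sing Y)), ∀ c : Cc (sing Y), Cc.IsDeg n c → Vn (inU U) (Cc.d c) →
    ∃ s ∈ S, ∃ b : Cc (sing Y), Vn (inU U) (c + s + Cc.d b)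

/-- the cohomology of the space `Y` in degree `n` is finite -/
def FinC (Y : Type) [TopologicalSpace Y] (n : ℕ) : Prop :=
  ∃ S : Finset (Cc (sing Y)), ∀ c : Cc (sing Y), Cc.IsDeg n c → Cc.d c = 0 →
    ∃ s ∈ S, ∃ b : Cc (sing Y), c + s = Cc.d b

theorem Vn.mono_set {U V : Set Y} (h : V ⊆ U) {c : Cc (sing Y)} (hc : Vn (inU U) c) :
    Vn (inU V) c := hc.mono fun _ hx t => h (hx t)

theorem cc_self {X : SS} (u : Cc X) : u + u = 0 := (Cc.cupC X).two u

theorem isDeg_add {X : SS} {n : ℕ} {u v : Cc X} (hu : Cc.IsDeg n u) (hv : Cc.IsDeg n v) :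
    Cc.IsDeg n (u + v) := fun p hp x => by
  show u p x + v p x = 0
  rw [hu p hp, hv p hp, add_zero]

theorem hom_eq {X : SS} {n : ℕ} {u : Cc X} (hu : Cc.IsDeg n u) : Cc.hom n u = u := by
  funext p
  by_cases hp : p = n
  · subst hp
    exact hom_self _ _
  · rw [hom_of_ne hp]
    funext x
    exact (hu p hp x).symm

theorem hom_add {X : SS} (n : ℕ) (u v : Cc X) : Cc.hom n (u + v) = Cc.hom n u + Cc.hom n v := by
  funext p
  show Cc.hom n (u + v) p = Cc.hom n u p + Cc.hom n v p
  by_cases hp : p = n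
  · subst hp
    rw [hom_self, hom_self, hom_self]
    rfl
  · rw [hom_of_ne hp, hom_of_ne hp, hom_of_ne hp, add_zero]

/-- glueing: a cochain with given values on `U` and on `V` -/
theorem exists_gl {U V : Set Y} {a b : Cc (sing Y)} (h : Vn (inU (U ∩ V)) (a + b)) :
    ∃ h : Cc (sing Y), Vn (inU U) (h + a) ∧ Vn (inU V) (h + b) := by
  classical
  refine ⟨fun p σ => if (inU U).mem σ then a p σ else b p σ, ?_, ?_⟩
  · intro p σ hσ
    show (if (inU U).mem σ then a p σ else b p σ) + a p σ = 0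
    rw [if_pos hσ]
    exact CharTwo.add_self_eq_zero _
  · intro p σ hσ
    show (if (inU U).mem σ then a p σ else b p σ) + b p σ = 0
    split_ifs with h1
    · exact h p σ fun t => ⟨h1 t, hσ t⟩
    · exact CharTwo.add_self_eq_zero _

/-- a cocycle on `U ∪ V` which is null on `U` and on `V` in a compatible way -/
theorem null_union {U V : Set Y} (hU : IsOpen U) (hV : IsOpen V) {e a b g : Cc (sing Y)}
    (he : Vn (inU (U ∪ V)) (Cc.d e)) (ha : Vn (inU U) (e + Cc.d a)) (hb : Vn (inU V) (e + Cc.d b))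
    (hg : Vn (inU (U ∩ V)) (a + b + Cc.d g)) :
    ∃ w : Cc (sing Y), Vn (inU (U ∪ V)) (e + Cc.d w) := by
  obtain ⟨h, h1, h2⟩ := exists_gl (U := U) (V := V) (a := a + Cc.d g) (b := b)
    (by rwa [add_right_comm])
  have k1 : Vn (inU U) (e + Cc.d h) := by
    have h3 := ha.add h1.d
    have e1 : e + Cc.d a + Cc.d (h + (a + Cc.d g)) = e + Cc.d h := by
      rw [d_add, d_add, d_d, add_zero]
      have : e + Cc.d a + (Cc.d h + Cc.d a) = e + Cc.d h + (Cc.d a + Cc.d a) := by abel
      rw [this, cc_self, add_zero]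
    rwa [e1] at h3
  have k2 : Vn (inU V) (e + Cc.d h) := by
    have h3 := hb.add h2.d
    have e1 : e + Cc.d b + Cc.d (h + b) = e + Cc.d h := by
      rw [d_add]
      have : e + Cc.d b + (Cc.d h + Cc.d b) = e + Cc.d h + (Cc.d b + Cc.d b) := by abel
      rw [this, cc_self, add_zero]
    rwa [e1] at h3
  obtain ⟨w, -, hw⟩ := vanish_more (ι := Bool) (S := U ∪ V) (U := fun i => if i then U else V)
    (fun i => by cases i <;> simp [hU, hV])
    (by
      rintro y (hy | hy)
      · exact Set.mem_iUnion.2 ⟨true, hy⟩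
      · exact Set.mem_iUnion.2 ⟨false, hy⟩)
    (c := e + Cc.d h) (by rw [d_add, d_d, add_zero]; exact he)
    (fun i => by
      cases i
      · exact k2
      · exact k1)
  refine ⟨h + w, ?_⟩
  rw [d_add, ← add_assoc]
  exact hw

/-- **Mayer-Vietoris.** -/
theorem FinOn.union {U V : Set Y} (hU : IsOpen U) (hV : IsOpen V) {n : ℕ} (h1 : FinOn U n)
    (h2 : FinOn V n) (h3 : ∀ m, n = m + 1 → FinOn (U ∩ V) m) : FinOn (U ∪ V) n := by
  classical
  obtain ⟨S1, h1⟩ := h1
  obtain ⟨S2, h2⟩ := h2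
  -- the cocycles with given classes on `U` and `V`
  let P : Cc (sing Y) × Cc (sing Y) → Cc (sing Y) → Prop := fun s c =>
    Cc.IsDeg n c ∧ Vn (inU (U ∪ V)) (Cc.d c) ∧ (∃ b, Vn (inU U) (c + s.1 + Cc.d b)) ∧
      ∃ b, Vn (inU V) (c + s.2 + Cc.d b)
  let F : Cc (sing Y) × Cc (sing Y) → Cc (sing Y) := fun s =>
    if h : ∃ c, P s c then h.choose else 0
  have hF : ∀ s c, P s c → P s (F s) := fun s c h => by
    have h' : ∃ c, P s c := ⟨c, h⟩
    show P s (if h : ∃ c, P s c then h.choose else 0)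
    rw [dif_pos h']
    exact h'.choose_spec
  have key : ∀ c : Cc (sing Y), Cc.IsDeg n c → Vn (inU (U ∪ V)) (Cc.d c) →
      ∃ s ∈ S1 ×ˢ S2, Cc.IsDeg n (c + F s) ∧ Vn (inU (U ∪ V)) (Cc.d (c + F s)) ∧
        (∃ a, Vn (inU U) (c + F s + Cc.d a)) ∧ ∃ b, Vn (inU V) (c + F s + Cc.d b) := by
    intro c hc hdc
    obtain ⟨s, hs, b1, hb1⟩ := h1 c hc (Vn.mono_set Set.subset_union_left hdc)
    obtain ⟨t, ht, b2, hb2⟩ := h2 c hc (Vn.mono_set Set.subset_union_right hdc)
    obtain ⟨k1, k2, ⟨a1, k3⟩, a2, k4⟩ := hF (s, t) c ⟨hc, hdc, ⟨b1, hb1⟩, b2, hb2⟩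
    refine ⟨(s, t), mem_product.2 ⟨hs, ht⟩, isDeg_add hc k1, ?_, ⟨b1 + a1, ?_⟩, b2 + a2, ?_⟩
    · rw [d_add]
      exact hdc.add k2
    · have h := hb1.add k3
      have e1 : c + s + Cc.d b1 + (F (s, t) + s + Cc.d a1) =
          c + F (s, t) + Cc.d (b1 + a1) := by
        rw [d_add]
        have : c + s + Cc.d b1 + (F (s, t) + s + Cc.d a1) =
          c + F (s, t) + (Cc.d b1 + Cc.d a1) + (s + s) := by abel
        rw [this, cc_self, add_zero]
      rwa [e1] at h
    · have h := hb2.add k4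
      have e1 : c + t + Cc.d b2 + (F (s, t) + t + Cc.d a2) =
          c + F (s, t) + Cc.d (b2 + a2) := by
        rw [d_add]
        have : c + t + Cc.d b2 + (F (s, t) + t + Cc.d a2) =
          c + F (s, t) + (Cc.d b2 + Cc.d a2) + (t + t) := by abel
        rw [this, cc_self, add_zero]
      rwa [e1] at h
  cases n with
  | zero =>
    refine ⟨(S1 ×ˢ S2).image F, fun c hc hdc => ?_⟩
    obtain ⟨s, hs, k1, k2, ⟨a, k3⟩, b, k4⟩ := key c hc hdc
    refine ⟨F s, mem_image_of_mem _ hs, ?_⟩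
    have z : ∀ {W : Set Y} {a : Cc (sing Y)}, Vn (inU W) (c + F s + Cc.d a) →
        Vn (inU W) (c + F s + Cc.d 0) := by
      intro W a h p x hx
      rw [d_zero, add_zero]
      by_cases hp : p = 0
      · subst hp
        have h1 : (c + F s) 0 x + Cc.d a 0 x = 0 := h 0 x hx
        rwa [d_zero_apply, add_zero] at h1
      · exact k1 p hp x
    exact null_union hU hV k2 (z k3) (z k4) (g := 0)
      (by rw [d_zero, add_zero, add_zero]; exact Vn.zero)
  | succ m =>
    obtain ⟨S3, h3⟩ := h3 m rfl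
    let Q : Cc (sing Y) → Cc (sing Y) × Cc (sing Y) × Cc (sing Y) → Prop := fun r e =>
      Vn (inU (U ∪ V)) (Cc.d e.1) ∧ Vn (inU U) (e.1 + Cc.d e.2.1) ∧
        Vn (inU V) (e.1 + Cc.d e.2.2) ∧ ∃ g, Vn (inU (U ∩ V)) (e.2.1 + e.2.2 + r + Cc.d g)
    let G : Cc (sing Y) → Cc (sing Y) × Cc (sing Y) × Cc (sing Y) := fun r =>
      if h : ∃ e, Q r e then h.choose else 0
    have hG : ∀ r e, Q r e → Q r (G r) := fun r e h => by
      have h' : ∃ e, Q r e := ⟨e, h⟩
      show Q r (if h : ∃ e, Q r e then h.choose else 0)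
      rw [dif_pos h']
      exact h'.choose_spec
    refine ⟨((S1 ×ˢ S2) ×ˢ S3).image fun s => F s.1 + (G s.2).1, fun c hc hdc => ?_⟩
    obtain ⟨s, hs, k1, k2, ⟨a, k3⟩, b, k4⟩ := key c hc hdc
    -- homogeneous primitives
    have z : ∀ {W : Set Y} {a : Cc (sing Y)}, Vn (inU W) (c + F s + Cc.d a) →
        Vn (inU W) (c + F s + Cc.d (Cc.hom m a)) := by
      intro W a h
      have h1 := h.hom (m + 1)
      rwa [hom_add, hom_eq k1, ← d_hom] at h1
    have l3 := z k3
    have l4 := z k4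
    have l5 : Vn (inU (U ∩ V)) (Cc.d (Cc.hom m a + Cc.hom m b)) := by
      have h := (Vn.mono_set Set.inter_subset_left l3).add
        (Vn.mono_set Set.inter_subset_right l4)
      have e1 : c + F s + Cc.d (Cc.hom m a) + (c + F s + Cc.d (Cc.hom m b)) =
          Cc.d (Cc.hom m a + Cc.hom m b) := by
        rw [d_add]
        have : c + F s + Cc.d (Cc.hom m a) + (c + F s + Cc.d (Cc.hom m b)) =
          Cc.d (Cc.hom m a) + Cc.d (Cc.hom m b) + ((c + F s) + (c + F s)) := by abel
        rw [this, cc_self, add_zero]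
      rwa [e1] at h
    obtain ⟨r, hr, g, hg⟩ := h3 _ (isDeg_add (isDeg_hom m a) (isDeg_hom m b)) l5
    obtain ⟨q1, q2, q3, g', q4⟩ := hG r (c + F s, Cc.hom m a, Cc.hom m b) ⟨k2, l3, l4, g, hg⟩
    refine ⟨F s + (G r).1, mem_image.2 ⟨(s, r), mem_product.2 ⟨hs, hr⟩, rfl⟩, ?_⟩
    have := null_union hU hV (e := c + F s + (G r).1) (a := Cc.hom m a + (G r).2.1)
      (b := Cc.hom m b + (G r).2.2) (g := g + g') ?_ ?_ ?_ ?_
    · rw [← add_assoc]
      exact this
    · rw [d_add]
      exact k2.add q1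
    · have h := l3.add q2
      have e1 : c + F s + Cc.d (Cc.hom m a) + ((G r).1 + Cc.d (G r).2.1) =
          c + F s + (G r).1 + Cc.d (Cc.hom m a + (G r).2.1) := by
        rw [d_add]
        abel
      rwa [e1] at h
    · have h := l4.add q3
      have e1 : c + F s + Cc.d (Cc.hom m b) + ((G r).1 + Cc.d (G r).2.2) =
          c + F s + (G r).1 + Cc.d (Cc.hom m b + (G r).2.2) := by
        rw [d_add]
        abel
      rwa [e1] at h
    · have h := hg.add q4
      have e1 : Cc.hom m a + Cc.hom m b + r + Cc.d g + ((G r).2.1 + (G r).2.2 + r + Cc.d g') =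
          Cc.hom m a + (G r).2.1 + (Cc.hom m b + (G r).2.2) + Cc.d (g + g') := by
        rw [d_add]
        have : Cc.hom m a + Cc.hom m b + r + Cc.d g + ((G r).2.1 + (G r).2.2 + r + Cc.d g') =
          Cc.hom m a + (G r).2.1 + (Cc.hom m b + (G r).2.2) + (Cc.d g + Cc.d g') + (r + r) := by
          abel
        rw [this, cc_self, add_zero]
      rwa [e1] at h

/-! ### convex sets -/

theorem inU_empty {p : ℕ} {σ : (sing Y).obj p} (h : (inU (∅ : Set Y)).mem σ) : False :=
  h (stdSimplex.vertex 0)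

theorem FinOn.empty (n : ℕ) : FinOn (∅ : Set Y) n :=
  ⟨{0}, fun _ _ _ => ⟨0, mem_singleton_self _, 0, fun _ _ h => (inU_empty h).elim⟩⟩

/-- the cochain with the value one on every simplex of degree `n` -/
def oneC (n : ℕ) : Cc (sing Y) := fun p _ => if p = n then 1 else 0

/-- a set which can be contracted inside itself by a homotopy of the whole space -/
theorem FinOn.contr {U : Set Y} (H : C(Y × unitInterval, Y)) (h0 : ∃ y₀, ∀ x, H (x, 0) = y₀)
    (h1 : ∀ x, H (x, 1) = x) (hU : ∀ x ∈ U, ∀ t, H (x, t) ∈ U) (n : ℕ) : FinOn U n := by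
  classical
  refine ⟨{0, oneC n}, fun c hc hd => ?_⟩
  obtain ⟨y₀, h0⟩ := h0
  have e1 : (singHtp H).e1 = SS.Map.id (sing Y) := by
    rw [singHtp_e1 H (ContinuousMap.id Y) fun x => h1 x]
    rfl
  have e0 : (singHtp H).e0 = singMap (ContinuousMap.const Y y₀) :=
    singHtp_e0 H (ContinuousMap.const Y y₀) fun x => h0 x
  have key := htp_d (singHtp H) c
  rw [e1, e0] at key
  have hv : Vn (inU U) (htp (singHtp H) (Cc.d c)) := htp_pair (A := inU U) (B := inU U) (singHtp H)
    (fun {_} _ _ hy t => hU _ (hy t) _) hd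
  rw [key] at hv
  -- the cochain of the constant simplices
  obtain ⟨s, hs, hs'⟩ : ∃ s ∈ ({0, oneC n} : Finset (Cc (sing Y))),
      Cc.pull (singMap (ContinuousMap.const Y y₀)) c = s := by
    have hpt : ∀ (p : ℕ) (σ : (sing Y).obj p), Cc.pull (singMap (ContinuousMap.const Y y₀)) c p σ =
        c p (ofC (ContinuousMap.const (G2.Dl p) y₀)) := fun _ _ => rfl
    have h2 : ∀ a : ZMod 2, a = 0 ∨ a = 1 := by decide
    rcases h2 (c n (ofC (ContinuousMap.const (G2.Dl n) y₀))) with h | h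
    · refine ⟨0, by simp, ?_⟩
      funext p σ
      rw [hpt]
      by_cases hp : p = n
      · subst hp
        exact h
      · exact hc p hp _
    · refine ⟨oneC n, by simp, ?_⟩
      funext p σ
      rw [hpt]
      by_cases hp : p = n
      · subst hp
        rw [h]
        exact (if_pos rfl).symm
      · rw [hc p hp _]
        exact (if_neg hp).symm
  refine ⟨s, hs, htp (singHtp H) c, ?_⟩
  have e2 : Cc.d (htp (singHtp H) c) + Cc.pull (SS.Map.id (sing Y)) c +
      Cc.pull (singMap (ContinuousMap.const Y y₀)) c = c + s + Cc.d (htp (singHtp H) c) := by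
    rw [hs']
    have : Cc.pull (SS.Map.id (sing Y)) c = c := rfl
    rw [this]
    abel
  rwa [e2] at hv

theorem FinOn.convex {m : ℕ} {U : Set (Fin m → ℝ)} (hU : Convex ℝ U) (n : ℕ) : FinOn U n := by
  rcases U.eq_empty_or_nonempty with rfl | ⟨y₀, hy₀⟩
  · exact FinOn.empty n
  · refine FinOn.contr ⟨fun q => y₀ + (q.2 : ℝ) • (q.1 - y₀), by fun_prop⟩ ⟨y₀, fun x => ?_⟩
      (fun x => ?_) (fun x hx t => ?_) n
    · show y₀ + ((0 : unitInterval) : ℝ) • (x - y₀) = y₀
      simp
    · show y₀ + ((1 : unitInterval) : ℝ) • (x - y₀) = x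
      simp
    · exact hU.add_smul_sub_mem hy₀ hx t.2

/-- finite unions of open convex sets -/
theorem FinOn.biUnion {m : ℕ} {ι : Type} (s : Finset ι) :
    ∀ (C : ι → Set (Fin m → ℝ)), (∀ i, Convex ℝ (C i)) → (∀ i, IsOpen (C i)) → ∀ n,
      FinOn (⋃ i ∈ s, C i) n := by
  classical
  induction s using Finset.induction_on with
  | empty =>
    intro C _ _ n
    simpa using FinOn.empty n
  | insert i s _ ih =>
    intro C hC hO n
    rw [Finset.set_biUnion_insert]
    refine FinOn.union (hO i) (isOpen_biUnion fun j _ => hO j) (FinOn.convex (hC i) n)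
      (ih C hC hO n) fun m _ => ?_
    rw [Set.inter_iUnion₂]
    exact ih (fun j => C i ∩ C j) (fun j => (hC i).inter (hC j)) (fun j => (hO i).inter (hO j)) m

/-! ### retracts -/

/-- a space `M` which is a retract of the subset `U` of `Y` -/
theorem FinOn.retract {M : Type} [TopologicalSpace M] {U : Set Y} {n : ℕ} (h : FinOn U n)
    (i : C(M, Y)) (hi : ∀ x, i x ∈ U) (r : C(U, M)) (hr : ∀ x, r ⟨i x, hi x⟩ = x) : FinC M n := by
  classical
  obtain ⟨S, hS⟩ := h
  set j : C(U, Y) := ⟨Subtype.val, continuous_subtype_val⟩ with hjdef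
  have hj : Topology.IsEmbedding j := Topology.IsEmbedding.subtypeVal
  have hrg : Set.range j = U := Subtype.range_coe
  refine ⟨S.image fun s => Cc.pull (singMap i) s, fun c hc hd => ?_⟩
  have hcj : Cc.pull (singMap j) (extJ hj (Cc.pull (singMap r) c)) = Cc.pull (singMap r) c :=
    pull_extJ hj _
  obtain ⟨s, hs, b, hb⟩ := hS (extJ hj (Cc.pull (singMap r) c))
    (isDeg_extJ hj (hc.pull (singMap r))) (by
      have : Vn (inU (Set.range j)) (Cc.d (extJ hj (Cc.pull (singMap r) c))) := by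
        rw [Vn_range_iff hj, pull_d, hcj, ← pull_d, hd, pull_zero]
      rwa [hrg] at this)
  let i' : C(M, U) := ⟨fun x => ⟨i x, hi x⟩, by fun_prop⟩
  have hi' : ∀ u : Cc (sing Y), Cc.pull (singMap i) u =
      Cc.pull (singMap i') (Cc.pull (singMap j) u) := fun _ => rfl
  have e1 : Cc.pull (singMap i) (extJ hj (Cc.pull (singMap r) c)) = c := by
    rw [hi', hcj]
    have h2 : r.comp i' = ContinuousMap.id M := ContinuousMap.ext hr
    have h3 : Cc.pull (singMap i') (Cc.pull (singMap r) c) = Cc.pull (singMap (r.comp i')) c := rfl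
    rw [h3, h2]
    rfl
  have e2 : Cc.pull (singMap i) (extJ hj (Cc.pull (singMap r) c) + s + Cc.d b) = 0 := by
    funext p σ
    exact hb p _ fun t => hi (toC σ t)
  rw [pull_add, pull_add, e1, pull_d] at e2
  refine ⟨_, mem_image_of_mem _ hs, Cc.pull (singMap i) b, ?_⟩
  have h4 : c + Cc.pull (singMap i) s =
      c + Cc.pull (singMap i) s + (Cc.d (Cc.pull (singMap i) b) + Cc.d (Cc.pull (singMap i) b)) := by
    rw [cc_self, add_zero]
  rw [h4, ← add_assoc, e2, zero_add]

/-- **Finiteness.** A compact space which is a retract of an open subset of `ℝᵐ` has finite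
cohomology. -/
theorem finC_of_compact {M : Type} [TopologicalSpace M] [CompactSpace M] {m : ℕ}
    {O : Set (Fin m → ℝ)} (hO : IsOpen O) (i : C(M, Fin m → ℝ)) (hi : ∀ x, i x ∈ O) (r : C(O, M))
    (hr : ∀ x, r ⟨i x, hi x⟩ = x) (n : ℕ) : FinC M n := by
  classical
  have hK : IsCompact (Set.range i) := isCompact_range i.continuous
  have hsub : Set.range i ⊆ O := by
    rintro _ ⟨x, rfl⟩
    exact hi x
  have hball : ∀ y : Fin m → ℝ, ∃ δ : ℝ, 0 < δ ∧ (y ∈ O → Metric.ball y δ ⊆ O) := by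
    intro y
    by_cases hy : y ∈ O
    · obtain ⟨δ, h1, h2⟩ := Metric.isOpen_iff.1 hO y hy
      exact ⟨δ, h1, fun _ => h2⟩
    · exact ⟨1, one_pos, fun h => absurd h hy⟩
  choose δ hδ hδO using hball
  obtain ⟨t, ht, hcov⟩ := hK.elim_nhds_subcover (fun y => Metric.ball y (δ y))
    fun y _ => Metric.ball_mem_nhds y (hδ y)
  have hW : (⋃ y ∈ t, Metric.ball y (δ y)) ⊆ O := by
    intro z hz
    obtain ⟨y, hy, hz⟩ := Set.mem_iUnion₂.1 hz
    exact hδO y (hsub (ht y hy)) hz
  refine (FinOn.biUnion t (fun y => Metric.ball y (δ y)) (fun y => convex_ball y (δ y))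
    (fun y => Metric.isOpen_ball) n).retract i (fun x => hcov ⟨x, rfl⟩)
    (r.comp ⟨Set.inclusion hW, continuous_inclusion hW⟩) fun x => ?_
  exact hr x

end Vale.Agent.P263.FR
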