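import Vale.Agent.P263.FR.Def
import Vale.Agent.P263.G2.SingIso
import Vale.Agent.P263.TJ.L1Asm

/-!
# P263, V5: the cohomology `Coh q X = Hom (H_q(X; 𝔽₂), 𝔽₂)` in terms of cochains

* `cl q u hu : Coh q X` : the class of a cocycle `u` of `sing X`.
* `exists_cl` : every element of `Coh q X` is the class of a homogeneous cocycle.
* `cl_eq_zero_iff`, `cl_eq_iff` : the class is zero iff the cocycle is a coboundary.
* `pull_cl` : `Coh.pull f` and the pull back of cochains.
* `exists_d_of_evc` : a homogeneous cocycle with the value zero on all cycles is a coboundary.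
-/

open CategoryTheory Simplicial

namespace Vale.Agent.P263.FR

open Vale.Agent.P263.S Vale.Agent.P263.E Vale.Agent.P263.G2 Vale.Agent.P263.TJ

variable {X Y : TopCat.{0}}

/-- the values of a cochain on Mathlib's singular simplices -/
noncomputable def toS (q : ℕ) (u : Cc (G2.sing X)) : (TopCat.toSSet.obj X) _⦋q⦌ → ZMod 2 :=
  Cc.pull (G2.ofSing X) u q

theorem cobd_toS (q : ℕ) (u : Cc (G2.sing X)) :
    T0.cobd (TopCat.toSSet.obj X) (toS q u) = toS (q + 1) (Cc.d u) := by
  have h := G.d_eq_cobd (TopCat.toSSet.obj X) (toS q u)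
  rw [← h]
  have h1 := d_eq_F (X := G.sing X) (Cc.pull (G2.ofSing X) u) q
  rw [← pull_d] at h1
  exact h1.symm

theorem evH_congr {Z : SSet.{0}} {q : ℕ} {c c' : Z _⦋q⦌ → ZMod 2} (h : c = c')
    (hc : T0.cobd Z c = 0) (hc' : T0.cobd Z c' = 0) : T0.evH Z c hc = T0.evH Z c' hc' := by
  subst h
  rfl

theorem toS_add (q : ℕ) (u v : Cc (G2.sing X)) : toS q (u + v) = toS q u + toS q v := rfl

theorem toS_zero (q : ℕ) : toS (X := X) q 0 = 0 := rfl

theorem toS_injective {q : ℕ} {u v : Cc (G2.sing X)} (hu : Cc.IsDeg q u) (hv : Cc.IsDeg q v)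
    (h : toS q u = toS q v) : u = v := by
  funext p σ
  by_cases hp : p = q
  · subst hp
    have h1 := congrFun h ((G2.toSing X).app σ)
    have h2 : (G2.ofSing X).app ((G2.toSing X).app σ) = σ :=
      (G2.singEquiv X p).symm_apply_apply σ
    change u p ((G2.ofSing X).app ((G2.toSing X).app σ)) =
      v p ((G2.ofSing X).app ((G2.toSing X).app σ)) at h1
    rwa [h2] at h1
  · rw [hu p hp, hv p hp]

/-- the cochain of degree `q` given by a function on Mathlib's singular simplices -/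
noncomputable def ofS (q : ℕ) (c : (TopCat.toSSet.obj X) _⦋q⦌ → ZMod 2) : Cc (G2.sing X) :=
  fun p σ => if h : p = q then c (h ▸ (G2.toSing X).app σ) else 0

theorem isDeg_ofS (q : ℕ) (c : (TopCat.toSSet.obj X) _⦋q⦌ → ZMod 2) : Cc.IsDeg q (ofS q c) :=
  fun _ hp _ => dif_neg hp

theorem toS_ofS (q : ℕ) (c : (TopCat.toSSet.obj X) _⦋q⦌ → ZMod 2) : toS q (ofS q c) = c := by
  funext x
  show (if h : q = q then c (h ▸ (G2.toSing X).app ((G2.ofSing X).app x)) else 0) = c x
  rw [dif_pos rfl]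
  exact congrArg c ((G2.singEquiv X q).apply_symm_apply x)

/-- the class of a cocycle -/
noncomputable def cl (q : ℕ) (u : Cc (G2.sing X)) (hu : Cc.d u = 0) : Coh q X :=
  (T0.evH (TopCat.toSSet.obj X) (toS q u) (by rw [cobd_toS, hu, toS_zero])).hom

theorem cl_add (q : ℕ) (u v : Cc (G2.sing X)) (hu : Cc.d u = 0) (hv : Cc.d v = 0)
    (h : Cc.d (u + v) = 0) : cl q (u + v) h = cl q u hu + cl q v hv :=
  congrArg ModuleCat.Hom.hom (T0.evH_add (TopCat.toSSet.obj X) (toS q u) (toS q v) _ _ _)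

theorem cl_congr {q : ℕ} {u v : Cc (G2.sing X)} {hu : Cc.d u = 0} {hv : Cc.d v = 0} (h : u = v) :
    cl q u hu = cl q v hv := by
  subst h
  rfl

/-- the class is zero iff the cocycle is a coboundary -/
theorem cl_eq_zero_iff {q : ℕ} {u : Cc (G2.sing X)} (hu : Cc.d u = 0) (hq : Cc.IsDeg q u) :
    cl q u hu = 0 ↔ ∃ b : Cc (G2.sing X), u = Cc.d b := by
  have h0 : cl q u hu = 0 ↔ T0.IsCobd (TopCat.toSSet.obj X) (toS q u) := by
    rw [← T0.evH_eq_zero_iff (TopCat.toSSet.obj X) (toS q u) (by rw [cobd_toS, hu, toS_zero])]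
    constructor
    · intro h
      ext x
      exact LinearMap.congr_fun h x
    · intro h
      exact congrArg ModuleCat.Hom.hom h
  rw [h0]
  cases q with
  | zero =>
    constructor
    · intro h
      refine ⟨0, ?_⟩
      rw [d_zero]
      exact toS_injective hq (fun _ _ _ => rfl) h
    · rintro ⟨b, rfl⟩
      show toS 0 (Cc.d b) = 0
      funext x
      exact d_zero_apply b _
  | succ q =>
    constructor
    · rintro ⟨b, hb⟩
      refine ⟨ofS q b, ?_⟩
      apply toS_injective hq (isDeg_ofS q b).d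
      rw [hb, ← cobd_toS, toS_ofS]
    · rintro ⟨b, rfl⟩
      exact ⟨toS q b, (cobd_toS q b).symm⟩

/-- the homogeneous form: `b` has the degree `q - 1` -/
theorem cl_succ_eq_zero_iff {q : ℕ} {u : Cc (G2.sing X)} (hu : Cc.d u = 0)
    (hq : Cc.IsDeg (q + 1) u) :
    cl (q + 1) u hu = 0 ↔ ∃ b : Cc (G2.sing X), Cc.IsDeg q b ∧ u = Cc.d b := by
  rw [cl_eq_zero_iff hu hq]
  constructor
  · rintro ⟨b, rfl⟩
    refine ⟨Cc.comp q b, Cc.isDeg_comp q b, ?_⟩
    rw [← Cc.comp_d, Cc.comp_eq hq]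
  · rintro ⟨b, -, hb⟩
    exact ⟨b, hb⟩

theorem cl_zero_eq_zero_iff {u : Cc (G2.sing X)} (hu : Cc.d u = 0)
    (hq : Cc.IsDeg 0 u) : cl 0 u hu = 0 ↔ u = 0 := by
  rw [cl_eq_zero_iff hu hq]
  constructor
  · rintro ⟨b, rfl⟩
    refine toS_injective hq (fun _ _ _ => rfl) ?_
    funext x
    exact d_zero_apply b _
  · rintro rfl
    exact ⟨0, d_zero.symm⟩

theorem cl_eq_iff {q : ℕ} {u v : Cc (G2.sing X)} (hu : Cc.d u = 0) (hv : Cc.d v = 0)
    (hq : Cc.IsDeg q u) (hq' : Cc.IsDeg q v) :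
    cl q u hu = cl q v hv ↔ ∃ b : Cc (G2.sing X), u + v = Cc.d b := by
  have h : Cc.d (u + v) = 0 := by rw [d_add, hu, hv, add_zero]
  have hd : Cc.IsDeg q (u + v) := fun p hp x => by
    show u p x + v p x = 0
    rw [hq p hp, hq' p hp, add_zero]
  rw [← cl_eq_zero_iff h hd, cl_add q u v hu hv h]
  constructor
  · intro e
    rw [e]
    ext x
    exact CharTwo.add_self_eq_zero _
  · intro e
    ext x
    exact CharTwo.add_eq_zero.1 (LinearMap.congr_fun e x)

/-- every element of `Coh q X` is the class of a homogeneous cocycle -/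
theorem exists_cl {q : ℕ} (x : Coh q X) :
    ∃ (u : Cc (G2.sing X)) (hu : Cc.d u = 0), Cc.IsDeg q u ∧ cl q u hu = x := by
  obtain ⟨c, hc, h⟩ := T0.evH_surjective (TopCat.toSSet.obj X) (n := q) (ModuleCat.ofHom x)
  have hd : Cc.d (ofS q c) = 0 := by
    apply toS_injective (isDeg_ofS q c).d (fun _ _ _ => rfl)
    rw [← cobd_toS, toS_ofS, hc]
    rfl
  exact ⟨ofS q c, hd, isDeg_ofS q c,
    congrArg ModuleCat.Hom.hom ((evH_congr (toS_ofS q c) _ _).trans h)⟩

/-- naturality -/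
theorem pull_cl {q : ℕ} (f : X ⟶ Y) (u : Cc (G2.sing Y)) (hu : Cc.d u = 0)
    (h : Cc.d (Cc.pull (G2.singMap f.hom) u) = 0) :
    Coh.pull f (cl q u hu) = cl q (Cc.pull (G2.singMap f.hom) u) h :=
  congrArg ModuleCat.Hom.hom (T0.homologyMap_evH (TopCat.toSSet.obj X) (TopCat.toSSet.map f)
    (toS q u) (by rw [cobd_toS, hu, toS_zero]))

/-! ### values on cycles -/

/-- a homogeneous cocycle with the value zero on all cycles is a coboundary -/
theorem exists_d_of_evc {Z : SS} {q : ℕ} {u : Cc Z} (hq : Cc.IsDeg q u)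
    (h : ∀ z : Chn (ZMod 2) Z q, IsCyc q z → evc u z = 0) : ∃ b : Cc Z, u = Cc.d b := by
  have hS : ∀ w : Cc Z, ∀ x : Z.obj q, evc w (Finsupp.single x 1) = w q x := fun w x => by
    rw [evc_single, one_mul]
  cases q with
  | zero =>
    refine ⟨0, ?_⟩
    rw [d_zero]
    funext p x
    by_cases hp : p = 0
    · subst hp
      rw [← hS u x]
      exact h _ (isCyc_zero _)
    · exact hq p hp x
  | succ q =>
    obtain ⟨g, hg⟩ := T0.Small.exists_functional (K := ZMod 2) (cb (ZMod 2) Z q)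
      (evc u (p := q + 1)) (fun z hz => h z hz)
    obtain ⟨b, hb⟩ : ∃ b : Cc Z, b = fun p x =>
      if hp : p = q then g (Finsupp.single (hp ▸ x) 1) else 0 := ⟨_, rfl⟩
    have hdeg : Cc.IsDeg q b := fun p hp x => by
      rw [hb]
      exact dif_neg hp
    have hbq : ∀ x : Z.obj q, b q x = g (Finsupp.single x 1) := fun x => by
      rw [hb]
      exact dif_pos rfl
    have hbg : evc b (p := q) = g := by
      refine Finsupp.lhom_ext' fun x => LinearMap.ext_ring ?_
      show evc b (Finsupp.single x 1) = g (Finsupp.single x 1)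
      rw [evc_single, one_mul, hbq]
    refine ⟨b, ?_⟩
    funext p x
    by_cases hp : p = q + 1
    · subst hp
      rw [← hS u x, ← hS (Cc.d b) x, evc_d, hbg, hg]
    · rw [hq p hp x, hdeg.d p hp x]

/-- a homogeneous cocycle which is not a coboundary has the value one on a cycle -/
theorem exists_cyc {Z : SS} {q : ℕ} {u : Cc Z} (hq : Cc.IsDeg q u)
    (h : ¬ ∃ b : Cc Z, u = Cc.d b) : ∃ z : Chn (ZMod 2) Z q, IsCyc q z ∧ evc u z = 1 := by
  by_contra hne
  push Not at hne
  refine h (exists_d_of_evc hq fun z hz => ?_)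
  have h2 : ∀ a : ZMod 2, a ≠ 1 → a = 0 := by decide
  exact h2 _ (hne z hz)

/-- a homogeneous cocycle with non-zero class has the value one on a cycle -/
theorem exists_cyc_of_cl {q : ℕ} {u : Cc (G2.sing X)} (hu : Cc.d u = 0) (hq : Cc.IsDeg q u)
    (h : cl q u hu ≠ 0) : ∃ z : Chn (ZMod 2) (G2.sing X) q, IsCyc q z ∧ evc u z = 1 :=
  exists_cyc hq fun hb => h ((cl_eq_zero_iff hu hq).2 hb)

end Vale.Agent.P263.FR
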