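import Vale.Agent.P263.FR.Tub
import Vale.Agent.P263.FR.H663.Uct
import Vale.Agent.P263.FR.H663.FinCoh

/-!
# P263, V5: `H^q(N; 𝔽₂)` is finite for a framed manifold `N`

* `finite_coh` : `Coh q X` is finite if the cohomology of cochains is.
* `Tub.finite_coh` : `Coh q (Mfd D.F)` is finite.
-/

open CategoryTheory OnePoint

namespace Vale.Agent.P263.FR

open Vale.Agent.P263.S Vale.Agent.P263.E Vale.Agent.P263.G2 Vale.Agent.P263.TJ

theorem finite_coh {X : TopCat.{0}} {q : ℕ} (h : FinC X q) : Finite (Coh q X) := by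
  classical
  obtain ⟨S, hS⟩ := h
  choose u hu hq hx using fun x : Coh q X => exists_cl x
  choose s hs b hb using fun x : Coh q X => hS (u x) (hq x) (hu x)
  refine Finite.of_injective (fun x => (⟨s x, hs x⟩ : S)) fun x y hxy => ?_
  have e : s x = s y := congrArg Subtype.val hxy
  rw [← hx x, ← hx y, cl_eq_iff _ _ (hq x) (hq y)]
  refine ⟨b x + b y, ?_⟩
  have h1 : u x + s x + (u y + s y) = u x + u y + (s x + s y) := by abel
  rw [d_add, ← hb x, ← hb y, h1, e, cc_self, add_zero]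

/-- a compact retract of an open subset of `ℝᵐ` -/
theorem finite_coh_of_compact {X : TopCat.{0}} [CompactSpace X] {m : ℕ}
    {O : Set (Fin m → ℝ)} (hO : IsOpen O) (i : C(X, Fin m → ℝ)) (hi : ∀ x, i x ∈ O) (r : C(O, X))
    (hr : ∀ x, r ⟨i x, hi x⟩ = x) (n : ℕ) : Finite (Coh n X) :=
  finite_coh (finC_of_compact hO i hi r hr n)

namespace Tub

variable {m K : ℕ} (D : Tub m K)

/-- the inclusion of the manifold -/
def inM : C(Mfd D.F, Fin m → ℝ) := ⟨Subtype.val, continuous_subtype_val⟩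

theorem inM_mem (v : Mfd D.F) : D.inM v ∈ {x : Fin m → ℝ | x ∈ D.U ∧ D.s * qn (D.f x) < 1} := by
  obtain ⟨hC, h0⟩ := D.mem_Mfd v
  have hq : D.s * qn (D.f v.1) = 0 := by rw [h0, qn_zero, mul_zero]
  refine ⟨?_, ?_⟩
  · by_contra h
    have := D.far v.1 hC h
    linarith
  · show D.s * qn (D.f v.1) < 1
    rw [hq]
    norm_num

theorem finC (n : ℕ) : FinC (Mfd D.F) n := by
  have := D.compactSpace_Mfd
  refine finC_of_compact D.isOpen_dom D.inM D.inM_mem
    ⟨fun x => ⟨D.ρ x.1, D.F_eq_zero.2 (D.ρ_mem x.1 (D.subset x.2.1) x.2.2.le)⟩, ?_⟩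
    (fun v => ?_) n
  · apply Continuous.subtype_mk
    exact continuousOn_iff_continuous_restrict.1
      (D.ρ_cont.mono fun x hx => ⟨D.subset hx.1, hx.2.le⟩)
  · exact Subtype.ext (D.ρ_id v.1 (D.mem_Mfd v).1 (D.mem_Mfd v).2)

/-- **the cohomology of a framed manifold is finite** -/
theorem finite_coh (q : ℕ) : Finite (Coh q (Mfd D.F)) := FR.finite_coh (D.finC q)

end Tub

end Vale.Agent.P263.FR
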