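import Vale.Agent.P263.FR.H663.FinTub

/-!
# P263, V5: finite families of cocycles

`FinC.family` : a finite family of homogeneous cocycles which spans the cohomology in degree `j`.
-/

open Finset

namespace Vale.Agent.P263.FR

open Vale.Agent.P263.S Vale.Agent.P263.E Vale.Agent.P263.G2 Vale.Agent.P263.TJ

/-- every class in degree `j` contains a member of a finite family of cocycles -/
theorem FinC.reps {X : Type} [TopologicalSpace X] {j : ℕ} (h : FinC X j) :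
    ∃ (n : ℕ) (z : Fin n → Cc (sing X)), (∀ i, Cc.IsDeg j (z i) ∧ Cc.d (z i) = 0) ∧
      ∀ u : Cc (sing X), Cc.IsDeg j u → Cc.d u = 0 → ∃ i v, u = z i + Cc.d v := by
  classical
  obtain ⟨S, hS⟩ := h
  let Z : S → Cc (sing X) := fun s =>
    if h : ∃ u : Cc (sing X), (Cc.IsDeg j u ∧ Cc.d u = 0) ∧ ∃ b, u + s.1 = Cc.d b then h.choose
    else 0
  have hZ : ∀ s : S, Cc.IsDeg j (Z s) ∧ Cc.d (Z s) = 0 := fun s => by
    by_cases h : ∃ u : Cc (sing X), (Cc.IsDeg j u ∧ Cc.d u = 0) ∧ ∃ b, u + s.1 = Cc.d b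
    · have : Z s = h.choose := dif_pos h
      rw [this]
      exact h.choose_spec.1
    · have : Z s = 0 := dif_neg h
      rw [this]
      exact ⟨fun _ _ _ => rfl, d_zero⟩
  refine ⟨S.card, fun i => Z (S.equivFin.symm i), fun i => hZ _, fun u hu hd => ?_⟩
  obtain ⟨s, hs, b, hb⟩ := hS u hu hd
  have h : ∃ u : Cc (sing X), (Cc.IsDeg j u ∧ Cc.d u = 0) ∧ ∃ b, u + s = Cc.d b :=
    ⟨u, ⟨hu, hd⟩, b, hb⟩
  have hZs : Z ⟨s, hs⟩ = h.choose := dif_pos h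
  obtain ⟨-, b', hb'⟩ := h.choose_spec
  rw [← hZs] at hb'
  refine ⟨S.equivFin ⟨s, hs⟩, b + b', ?_⟩
  show u = Z (S.equivFin.symm (S.equivFin ⟨s, hs⟩)) + Cc.d (b + b')
  rw [Equiv.symm_apply_apply, d_add, ← hb, ← hb']
  have e : Z ⟨s, hs⟩ + (u + s + (Z ⟨s, hs⟩ + s)) = u + (s + s) + (Z ⟨s, hs⟩ + Z ⟨s, hs⟩) := by
    abel
  rw [e, cc_self, cc_self, add_zero, add_zero]

/-- the family spans -/
theorem FinC.family {X : Type} [TopologicalSpace X] {j : ℕ} (h : FinC X j) :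
    ∃ (n : ℕ) (z : Fin n → Cc (sing X)), (∀ i, Cc.IsDeg j (z i) ∧ Cc.d (z i) = 0) ∧
      ∀ u : Cc (sing X), Cc.IsDeg j u → Cc.d u = 0 →
        ∃ (c : Fin n → ZMod 2) (v : Cc (sing X)), u = ∑ i, c i • z i + Cc.d v := by
  classical
  obtain ⟨n, z, hz, h⟩ := h.reps
  refine ⟨n, z, hz, fun u hu hd => ?_⟩
  obtain ⟨i, v, hv⟩ := h u hu hd
  refine ⟨Pi.single i 1, v, ?_⟩
  rw [Finset.sum_eq_single i]
  · rw [Pi.single_eq_same, one_smul, hv]
  · intro k _ hk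
    rw [Pi.single_eq_of_ne hk, zero_smul]
  · intro h
    exact absurd (mem_univ i) h

/-- the framed manifolds -/
theorem Tub.family {m K : ℕ} (D : Tub m K) (j : ℕ) :
    ∃ (n : ℕ) (z : Fin n → Cc (sing (Mfd D.F))), (∀ i, Cc.IsDeg j (z i) ∧ Cc.d (z i) = 0) ∧
      ∀ u : Cc (sing (Mfd D.F)), Cc.IsDeg j u → Cc.d u = 0 →
        ∃ (c : Fin n → ZMod 2) (v : Cc (sing (Mfd D.F))), u = ∑ i, c i • z i + Cc.d v :=
  (D.finC j).family

end Vale.Agent.P263.FR
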