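import Vale.Agent.P263.FR.H663.FinTub

/-!
# P263, V5: the cohomology of `M × Bool`

* `inB b : C(M, M × Bool)` : the inclusion of a copy of `M`.
* `glB u : Cc (sing (M × Bool))` : the cochain with the restrictions `u b`.
* `ccB_ext`, `pull_glB`, `d_glB`, `isDeg_glB`, `cup_glB`.
* `cohBool` : `Coh q (M × Bool) ≃ (Bool → Coh q M)`, linear.
-/

open CategoryTheory Finset

namespace Vale.Agent.P263.FR

open Vale.Agent.P263.S Vale.Agent.P263.E Vale.Agent.P263.G2 Vale.Agent.P263.TJ

section

variable {M : Type} [TopologicalSpace M]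

/-- the inclusion of a copy of `M` -/
def inB (b : Bool) : C(M, M × Bool) := ⟨fun x => (x, b), by fun_prop⟩

@[simp] theorem inB_apply (b : Bool) (x : M) : inB b x = (x, b) := rfl

/-- the copy which contains the simplex -/
noncomputable def sideB {p : ℕ} (σ : (sing (M × Bool)).obj p) : Bool :=
  (toC σ (stdSimplex.vertex 0)).2

/-- the simplex of `M` -/
noncomputable def basB {p : ℕ} (σ : (sing (M × Bool)).obj p) : (sing M).obj p :=
  (singMap (⟨Prod.fst, continuous_fst⟩ : C(M × Bool, M))).app σ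

theorem isPreconnected_dl (p : ℕ) : PreconnectedSpace (G2.Dl p) :=
  Subtype.preconnectedSpace (convex_stdSimplex ℝ (Fin (p + 1))).isPreconnected

theorem snd_eq {p : ℕ} (σ : (sing (M × Bool)).obj p) (t : G2.Dl p) : (toC σ t).2 = sideB σ := by
  have := isPreconnected_dl p
  exact PreconnectedSpace.constant this (f := fun t => (toC σ t).2)
    (continuous_snd.comp (toC σ).continuous)

theorem inB_basB {p : ℕ} (σ : (sing (M × Bool)).obj p) :
    (singMap (inB (sideB σ))).app (basB σ) = σ := by
  apply ContinuousMap.ext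
  intro t
  exact Prod.ext rfl (snd_eq σ t).symm

@[simp] theorem sideB_inB (b : Bool) {p : ℕ} (τ : (sing M).obj p) :
    sideB ((singMap (inB b)).app τ) = b := rfl

@[simp] theorem basB_inB (b : Bool) {p : ℕ} (τ : (sing M).obj p) :
    basB ((singMap (inB b)).app τ) = τ := rfl

/-- cochains on `M × Bool` are determined by the restrictions -/
theorem ccB_ext {w w' : Cc (sing (M × Bool))}
    (h : ∀ b, Cc.pull (singMap (inB b)) w = Cc.pull (singMap (inB b)) w') : w = w' := by
  funext p σ
  rw [← inB_basB σ]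
  exact congrFun (congrFun (h (sideB σ)) p) (basB σ)

/-- the cochain with given restrictions -/
noncomputable def glB (u : Bool → Cc (sing M)) : Cc (sing (M × Bool)) := fun p σ =>
  u (sideB σ) p (basB σ)

@[simp] theorem pull_glB (u : Bool → Cc (sing M)) (b : Bool) :
    Cc.pull (singMap (inB b)) (glB u) = u b := rfl

theorem glB_pull (w : Cc (sing (M × Bool))) :
    glB (fun b => Cc.pull (singMap (inB b)) w) = w := ccB_ext fun _ => rfl

theorem isDeg_glB {n : ℕ} {u : Bool → Cc (sing M)} (h : ∀ b, Cc.IsDeg n (u b)) :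
    Cc.IsDeg n (glB u) := fun p hp _ => h _ p hp _

theorem d_glB (u : Bool → Cc (sing M)) : Cc.d (glB u) = glB fun b => Cc.d (u b) := by
  apply ccB_ext
  intro b
  rw [pull_d, pull_glB, pull_glB]

theorem d_glB_zero {u : Bool → Cc (sing M)} (h : ∀ b, Cc.d (u b) = 0) : Cc.d (glB u) = 0 := by
  rw [d_glB]
  apply ccB_ext
  intro b
  rw [pull_glB, h, pull_zero]

theorem glB_add (u v : Bool → Cc (sing M)) : glB (u + v) = glB u + glB v := rfl

theorem cup_glB (j : ℕ) (u v : Bool → Cc (sing M)) :
    Cc.cup j (glB u) (glB v) = glB fun b => Cc.cup j (u b) (v b) := by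
  apply ccB_ext
  intro b
  rw [pull_cup, pull_glB, pull_glB, pull_glB]

end

section coh

variable {M : Type} [TopologicalSpace M] {q : ℕ}

/-- the inclusion as a morphism -/
noncomputable def inBH (b : Bool) : TopCat.of M ⟶ TopCat.of (M × Bool) := TopCat.ofHom (inB b)

theorem pull_inBH_cl (b : Bool) (w : Cc (G2.sing (M × Bool))) (hw : Cc.d w = 0) :
    Coh.pull (inBH b) (cl (X := TopCat.of (M × Bool)) q w hw) =
      cl (X := TopCat.of M) q (Cc.pull (singMap (inB b)) w) (by rw [← pull_d, hw, pull_zero]) :=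
  pull_cl (inBH b) w hw _

theorem coh_pull_add {X Y : TopCat.{0}} (f : X ⟶ Y) (y y' : Coh q Y) :
    Coh.pull f (y + y') = Coh.pull f y + Coh.pull f y' := rfl

/-- the restrictions determine the class -/
theorem cohBool_inj {x : Coh q (TopCat.of (M × Bool))} (h : ∀ b, Coh.pull (inBH b) x = 0) :
    x = 0 := by
  obtain ⟨w, hw, hq, rfl⟩ := exists_cl x
  rw [cl_eq_zero_iff hw hq]
  have h1 : ∀ b, ∃ v : Cc (sing M), Cc.pull (singMap (inB b)) w = Cc.d v := fun b => by
    have h2 := h b
    rw [pull_inBH_cl] at h2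
    exact (cl_eq_zero_iff (X := TopCat.of M) _ (hq.pull _)).1 h2
  choose v hv using h1
  refine ⟨glB v, ?_⟩
  rw [d_glB]
  exact ccB_ext fun b => (hv b).trans (pull_glB (fun b => Cc.d (v b)) b).symm

/-- all restrictions occur -/
theorem cohBool_surj (y : Bool → Coh q (TopCat.of M)) :
    ∃ x : Coh q (TopCat.of (M × Bool)), ∀ b, Coh.pull (inBH b) x = y b := by
  choose u hu hq hy using fun b => exists_cl (y b)
  refine ⟨cl (X := TopCat.of (M × Bool)) q (glB u) (d_glB_zero hu), fun b => ?_⟩
  rw [pull_inBH_cl, ← hy b]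
  rfl

/-- the restrictions, a linear map -/
noncomputable def cohBoolL (M : Type) [TopologicalSpace M] (q : ℕ) :
    Coh q (TopCat.of (M × Bool)) →ₗ[ZMod 2] (Bool → Coh q (TopCat.of M)) where
  toFun x b := Coh.pull (inBH b) x
  map_add' _ _ := rfl
  map_smul' _ _ := rfl

theorem cohBoolL_injective : Function.Injective (cohBoolL M q) := by
  intro x y h
  rw [← sub_eq_zero]
  refine cohBool_inj fun b => ?_
  have h1 : Coh.pull (inBH b) x = Coh.pull (inBH b) y := congrFun h b
  have h2 : Coh.pull (inBH b) (x - y) = Coh.pull (inBH b) x - Coh.pull (inBH b) y := rfl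
  rw [h2, h1, sub_self]

theorem cohBoolL_surjective : Function.Surjective (cohBoolL M q) := by
  intro y
  obtain ⟨x, hx⟩ := cohBool_surj y
  exact ⟨x, funext hx⟩

/-- **`H^q(M × Bool) = H^q(M) × H^q(M)`** -/
noncomputable def cohBool (M : Type) [TopologicalSpace M] (q : ℕ) :
    Coh q (TopCat.of (M × Bool)) ≃ₗ[ZMod 2] (Bool → Coh q (TopCat.of M)) :=
  LinearEquiv.ofBijective (cohBoolL M q) ⟨cohBoolL_injective, cohBoolL_surjective⟩

theorem cohBool_apply (x : Coh q (TopCat.of (M × Bool))) (b : Bool) :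
    cohBool M q x b = Coh.pull (inBH b) x := rfl

/-- the class with given restrictions -/
theorem cohBool_symm_cl {u : Bool → Cc (sing M)} (hu : ∀ b, Cc.d (u b) = 0) :
    (cohBool M q).symm (fun b => cl (X := TopCat.of M) q (u b) (hu b)) =
      cl (X := TopCat.of (M × Bool)) q (glB u) (d_glB_zero hu) := by
  rw [LinearEquiv.symm_apply_eq]
  funext b
  rw [cohBool_apply, pull_inBH_cl]
  rfl

/-- the number of classes -/
theorem card_cohBool : Nat.card (Coh q (TopCat.of (M × Bool))) =
    Nat.card (Coh q (TopCat.of M) × Coh q (TopCat.of M)) :=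
  Nat.card_congr ((cohBool M q).toEquiv.trans
    { toFun := fun f => (f false, f true)
      invFun := fun p b => if b then p.2 else p.1
      left_inv := fun f => by
        funext b
        cases b <;> rfl
      right_inv := fun p => rfl })

end coh

/-! ### homeomorphisms -/

section homeo

variable {X Y : TopCat.{0}} {q : ℕ}

/-- an isomorphism of spaces gives an isomorphism in cohomology -/
noncomputable def cohIso (e : X ≅ Y) : Coh q Y ≃ₗ[ZMod 2] Coh q X where
  toFun := Coh.pull e.hom
  map_add' _ _ := rfl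
  map_smul' _ _ := rfl
  invFun := Coh.pull e.inv
  left_inv y := by
    show (y ∘ₗ ((ST.H q).map e.hom).hom) ∘ₗ ((ST.H q).map e.inv).hom = y
    rw [LinearMap.comp_assoc, ← ModuleCat.hom_comp, ← Functor.map_comp, Iso.inv_hom_id,
      CategoryTheory.Functor.map_id]
    rfl
  right_inv x := by
    show (x ∘ₗ ((ST.H q).map e.inv).hom) ∘ₗ ((ST.H q).map e.hom).hom = x
    rw [LinearMap.comp_assoc, ← ModuleCat.hom_comp, ← Functor.map_comp, Iso.hom_inv_id,
      CategoryTheory.Functor.map_id]
    rfl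

theorem coh_pull_comp {Z : TopCat.{0}} (f : X ⟶ Y) (g : Y ⟶ Z) (z : Coh q Z) :
    Coh.pull (f ≫ g) z = Coh.pull f (Coh.pull g z) := by
  show z ∘ₗ ((ST.H q).map (f ≫ g)).hom = (z ∘ₗ ((ST.H q).map g).hom) ∘ₗ ((ST.H q).map f).hom
  rw [Functor.map_comp]
  rfl

theorem coh_pull_id (x : Coh q X) : Coh.pull (𝟙 X) x = x := by
  show x ∘ₗ ((ST.H q).map (𝟙 X)).hom = x
  rw [CategoryTheory.Functor.map_id]
  rfl

end homeo

end Vale.Agent.P263.FR
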