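import Vale.Agent.P263.FR.Gauss
import Vale.Agent.P263.FR.H663.BoolC

/-!
# P263, V5: the majority for the form of `M ⊔ M'`, from hypotheses on cocycles

`QF M q` : a quadratic form on the cocycles of degree `q` of `M`, with a nonsingular associated
form.
`QF.majority` : let `N` be homeomorphic to `M × Bool` and let `P` be a property of the classes of
`N` which implies `F(z₁) + F(z₀) + I(z₀ ∪ w) = 0` for the restrictions `z₀`, `z₁`, where `F(w) = 1`.
Then less than half of the classes have the property `P`.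
-/

open CategoryTheory Finset

namespace Vale.Agent.P263.FR

open Vale.Agent.P263.S Vale.Agent.P263.E Vale.Agent.P263.G2 Vale.Agent.P263.TJ

section cup

variable {X : SS} {q : ℕ}

theorem isDeg_cup1 {u v : Cc X} (hu : Cc.IsDeg q u) (hv : Cc.IsDeg q v) :
    Cc.IsDeg (q + q) (Cc.cup 1 u v) := hu.cup hv (by omega)

theorem d_cup1 (u v : Cc X) :
    Cc.d (Cc.cup 1 u v) = Cc.cup 1 (Cc.d u) v + Cc.cup 1 u (Cc.d v) := by
  have h := TJ.d_cup 0 u v
  simp only [cup_zero, zero_add, add_zero] at h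
  rw [h]

theorem d_cup1_zero {u v : Cc X} (hu : Cc.d u = 0) (hv : Cc.d v = 0) :
    Cc.d (Cc.cup 1 u v) = 0 := by
  rw [d_cup1, hu, hv, cup_zero_left, cup_zero_right, add_zero]

theorem cup1_coh_left {u u' v : Cc X} (hv : Cc.d v = 0) {a : Cc X} (h : u + u' = Cc.d a) :
    Cc.cup 1 u v + Cc.cup 1 u' v = Cc.d (Cc.cup 1 a v) := by
  rw [← cup_add_left, h, d_cup1, hv, cup_zero_right, add_zero]

theorem cup1_coh_right {u v v' : Cc X} (hu : Cc.d u = 0) {a : Cc X} (h : v + v' = Cc.d a) :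
    Cc.cup 1 u v + Cc.cup 1 u v' = Cc.d (Cc.cup 1 u a) := by
  rw [← cup_add_right, h, d_cup1, hu, cup_zero_left, zero_add]

theorem d_add_zero {u v : Cc X} (hu : Cc.d u = 0) (hv : Cc.d v = 0) : Cc.d (u + v) = 0 := by
  rw [d_add, hu, hv, add_zero]

end cup

/-- a quadratic form on the cocycles of degree `q`, with a nonsingular associated form -/
structure QF (M : Type) [TopologicalSpace M] (q : ℕ) where
  /-- the form -/
  F : ∀ u : Cc (sing M), Cc.IsDeg q u → Cc.d u = 0 → ZMod 2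
  /-- the integral -/
  I : ∀ u : Cc (sing M), Cc.IsDeg (q + q) u → Cc.d u = 0 → ZMod 2
  F_coh : ∀ (u v : Cc (sing M)) (hu : Cc.IsDeg q u) (hv : Cc.IsDeg q v) (du : Cc.d u = 0)
    (dv : Cc.d v = 0) (a : Cc (sing M)), u + v = Cc.d a → F u hu du = F v hv dv
  I_coh : ∀ (u v : Cc (sing M)) (hu : Cc.IsDeg (q + q) u) (hv : Cc.IsDeg (q + q) v)
    (du : Cc.d u = 0) (dv : Cc.d v = 0) (a : Cc (sing M)), u + v = Cc.d a →
      I u hu du = I v hv dv
  I_add : ∀ (u v : Cc (sing M)) (hu : Cc.IsDeg (q + q) u) (hv : Cc.IsDeg (q + q) v)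
    (du : Cc.d u = 0) (dv : Cc.d v = 0),
      I (u + v) (isDeg_add hu hv) (d_add_zero du dv) = I u hu du + I v hv dv
  F_add : ∀ (u v : Cc (sing M)) (hu : Cc.IsDeg q u) (hv : Cc.IsDeg q v) (du : Cc.d u = 0)
    (dv : Cc.d v = 0), F (u + v) (isDeg_add hu hv) (d_add_zero du dv) =
      F u hu du + F v hv dv + I (Cc.cup 1 u v) (isDeg_cup1 hu hv) (d_cup1_zero du dv)
  nonsing : ∀ (u : Cc (sing M)) (hu : Cc.IsDeg q u) (du : Cc.d u = 0), (¬ ∃ a, u = Cc.d a) →
    ∃ (v : Cc (sing M)) (hv : Cc.IsDeg q v) (dv : Cc.d v = 0),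
      I (Cc.cup 1 v u) (isDeg_cup1 hv hu) (d_cup1_zero dv du) ≠ 0

namespace QF

variable {M : Type} [TopologicalSpace M] {q : ℕ} (Q : QF M q)

/-- the form on classes -/
noncomputable def phi (x : Coh q (TopCat.of M)) : ZMod 2 :=
  Q.F (exists_cl x).choose (exists_cl x).choose_spec.choose_spec.1
    (exists_cl x).choose_spec.choose

theorem phi_cl (u : Cc (sing M)) (hu : Cc.IsDeg q u) (du : Cc.d u = 0) :
    Q.phi (cl (X := TopCat.of M) q u du) = Q.F u hu du := by
  obtain ⟨x, hx⟩ : ∃ x, x = cl (X := TopCat.of M) q u du := ⟨_, rfl⟩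
  rw [← hx]
  have h1 := (exists_cl x).choose_spec.choose_spec
  have h2 : cl (X := TopCat.of M) q (exists_cl x).choose (exists_cl x).choose_spec.choose =
      cl (X := TopCat.of M) q u du := h1.2.trans hx
  obtain ⟨a, ha⟩ := (cl_eq_iff _ _ h1.1 hu).1 h2
  exact Q.F_coh _ _ h1.1 hu _ du a ha

/-- the associated form on classes -/
noncomputable def bil (x y : Coh q (TopCat.of M)) : ZMod 2 :=
  Q.I (Cc.cup 1 (exists_cl x).choose (exists_cl y).choose)
    (isDeg_cup1 (exists_cl x).choose_spec.choose_spec.1 (exists_cl y).choose_spec.choose_spec.1)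
    (d_cup1_zero (exists_cl x).choose_spec.choose (exists_cl y).choose_spec.choose)

theorem bil_cl (u v : Cc (sing M)) (hu : Cc.IsDeg q u) (hv : Cc.IsDeg q v) (du : Cc.d u = 0)
    (dv : Cc.d v = 0) : Q.bil (cl (X := TopCat.of M) q u du) (cl (X := TopCat.of M) q v dv) =
      Q.I (Cc.cup 1 u v) (isDeg_cup1 hu hv) (d_cup1_zero du dv) := by
  obtain ⟨x, hx⟩ : ∃ x, x = cl (X := TopCat.of M) q u du := ⟨_, rfl⟩
  obtain ⟨y, hy⟩ : ∃ y, y = cl (X := TopCat.of M) q v dv := ⟨_, rfl⟩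
  rw [← hx, ← hy]
  have h1 := (exists_cl x).choose_spec.choose_spec
  have h1' := (exists_cl x).choose_spec.choose
  have h2 := (exists_cl y).choose_spec.choose_spec
  have h2' := (exists_cl y).choose_spec.choose
  obtain ⟨a, ha⟩ := (cl_eq_iff h1' du h1.1 hu).1 (h1.2.trans hx)
  obtain ⟨a', ha'⟩ := (cl_eq_iff h2' dv h2.1 hv).1 (h2.2.trans hy)
  refine (Q.I_coh _ (Cc.cup 1 u (exists_cl y).choose) _ (isDeg_cup1 hu h2.1) _
    (d_cup1_zero du h2') _ (cup1_coh_left h2' ha)).trans ?_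
  exact Q.I_coh _ _ _ _ _ _ _ (cup1_coh_right du ha')

theorem phi_add (x y : Coh q (TopCat.of M)) :
    Q.phi (x + y) = Q.phi x + Q.phi y + Q.bil x y := by
  obtain ⟨u, du, hu, rfl⟩ := exists_cl x
  obtain ⟨v, dv, hv, rfl⟩ := exists_cl y
  rw [← cl_add (X := TopCat.of M) q u v du dv (d_add_zero du dv), Q.phi_cl _ (isDeg_add hu hv),
    Q.phi_cl _ hu, Q.phi_cl _ hv, Q.bil_cl _ _ hu hv, Q.F_add]

theorem bil_add (x y z : Coh q (TopCat.of M)) : Q.bil (x + y) z = Q.bil x z + Q.bil y z := by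
  obtain ⟨u, du, hu, rfl⟩ := exists_cl x
  obtain ⟨v, dv, hv, rfl⟩ := exists_cl y
  obtain ⟨w, dw, hw, rfl⟩ := exists_cl z
  rw [← cl_add (X := TopCat.of M) q u v du dv (d_add_zero du dv),
    Q.bil_cl _ _ (isDeg_add hu hv) hw, Q.bil_cl _ _ hu hw, Q.bil_cl _ _ hv hw, ← Q.I_add]
  congr 1
  exact cup_add_left 1 u v w

theorem bil_nonsing (z : Coh q (TopCat.of M)) (h : ∀ x, Q.bil x z = 0) : z = 0 := by
  obtain ⟨w, dw, hw, rfl⟩ := exists_cl z
  by_contra hne
  obtain ⟨v, hv, dv, h1⟩ := Q.nonsing w hw dw fun ha => hne ((cl_eq_zero_iff dw hw).2 ha)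
  exact h1 ((Q.bil_cl v w hv hw dv dw).symm.trans (h _))

/-- **The majority.** -/
theorem majority [Finite (Coh q (TopCat.of M))] {w : Cc (sing M)} (hw : Cc.IsDeg q w)
    (dw : Cc.d w = 0) (hF : Q.F w hw dw = 1) {N : TopCat.{0}} (e : N ≅ TopCat.of (M × Bool))
    {P : Coh q N → Prop}
    (hP : ∀ (x : Coh q N) (z : Bool → Cc (sing M)) (hz : ∀ b, Cc.IsDeg q (z b))
      (dz : ∀ b, Cc.d (z b) = 0),
      Coh.pull e.inv x = cl (X := TopCat.of (M × Bool)) q (glB z) (d_glB_zero dz) → P x →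
        Q.F (z true) (hz true) (dz true) + Q.F (z false) (hz false) (dz false) +
          Q.I (Cc.cup 1 (z false) w) (isDeg_cup1 (hz false) hw) (d_cup1_zero (dz false) dw) = 0) :
    Finite (Coh q N) ∧ Nat.card (Coh q N) < 2 * Nat.card {x : Coh q N // ¬ P x} := by
  classical
  have := Fintype.ofFinite (Coh q (TopCat.of M))
  let V := Coh q (TopCat.of M)
  let E : Coh q N ≃ V × V :=
    ((cohIso e.symm).toEquiv.trans (cohBool M q).toEquiv).trans
      { toFun := fun f => (f true, f false)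
        invFun := fun p b => if b then p.1 else p.2
        left_inv := fun f => by
          funext b
          cases b <;> rfl
        right_inv := fun p => rfl }
  have hfin : Finite (Coh q N) := Finite.of_equiv _ E.symm
  refine ⟨hfin, ?_⟩
  obtain ⟨ψ, hψ⟩ : ∃ ψ : V × V → ZMod 2, ψ = fun p => Q.phi p.1 +
    (Q.phi p.2 + Q.bil p.2 (cl (X := TopCat.of M) q w dw)) := ⟨_, rfl⟩
  have hmaj := FR.majority (φ := Q.phi) (b := Q.bil) Q.phi_add Q.bil_add Q.bil_nonsing
    (u := cl (X := TopCat.of M) q w dw) ((Q.phi_cl w hw dw).trans hF) (ψ := ψ)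
    fun x y => by rw [hψ]
  rw [Nat.card_congr E]
  refine hmaj.trans_le (Nat.mul_le_mul_left 2 ?_)
  have key : ∀ p : V × V, ψ p = 1 → ¬ P (E.symm p) := by
    intro p hp hP'
    obtain ⟨u, du, hu, hu'⟩ := exists_cl p.1
    obtain ⟨v, dv, hv, hv'⟩ := exists_cl p.2
    let z : Bool → Cc (sing M) := fun b => if b then u else v
    have hz : ∀ b, Cc.IsDeg q (z b) := fun b => by cases b <;> assumption
    have dz : ∀ b, Cc.d (z b) = 0 := fun b => by cases b <;> assumption
    have h1 : Coh.pull e.inv (E.symm p) =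
        cl (X := TopCat.of (M × Bool)) q (glB z) (d_glB_zero dz) := by
      have h2 : cohIso e.symm (E.symm p) =
          (cohBool M q).symm (fun b => if b then p.1 else p.2) :=
        (cohIso e.symm).apply_symm_apply _
      have h3 : (fun b : Bool => if b then p.1 else p.2) =
          fun b => cl (X := TopCat.of M) q (z b) (dz b) := by
        funext b
        cases b
        · exact hv'.symm
        · exact hu'.symm
      rw [h3, cohBool_symm_cl] at h2
      exact h2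
    have h4 := hP (E.symm p) z hz dz h1 hP'
    have h5 : ψ p = Q.F u hu du + (Q.F v hv dv +
        Q.I (Cc.cup 1 v w) (isDeg_cup1 hv hw) (d_cup1_zero dv dw)) := by
      rw [hψ, ← Q.phi_cl u hu du, ← Q.phi_cl v hv dv, ← Q.bil_cl v w hv hw dv dw]
      show Q.phi p.1 + (Q.phi p.2 + Q.bil p.2 _) = _
      rw [← hu', ← hv']
    rw [hp, ← add_assoc] at h5
    have h6 : (1 : ZMod 2) = 0 := h5.trans h4
    exact absurd h6 (by decide)
  exact Nat.card_le_card_of_injective
    (fun p : {p : V × V // ψ p = 1} => (⟨E.symm p.1, key p.1 p.2⟩ : {x : Coh q N // ¬ P x}))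
    fun p p' h => Subtype.ext (E.symm.injective (congrArg Subtype.val h))

end QF

end Vale.Agent.P263.FR
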