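import Vale.Agent.P263.FR.PhiB
import Vale.Agent.P263.FR.H663.Asm

/-!
# P263, V5: the majority for the literal form

* `QF.ofC` : the quadratic form `Phi c` of a stable map.
* `Int_cup_comm` : `∫ u ∪ v = ∫ v ∪ u`.
* `PhiZero.iso` : transport of `PhiZero` along a homeomorphism.
* `count_of_form` : the number of classes with `φ = 0` on `N ≅ M × Bool`.
-/

open CategoryTheory Finset OnePoint

namespace Vale.Agent.P263.FR

open Vale.Agent.P263.S hiding sn sn_add
open Vale.Agent.P263.E Vale.Agent.P263.H83 Vale.Agent.P263.G2 Vale.Agent.P263.TJ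
open Vale.Agent.P263.T0 CupC

section

variable {M : Type} [TopologicalSpace M] [CompactSpace M] [T2Space M] {d i q : ℕ}

theorem cup1_comm {X : SS} {u v : Cc X} (hu : Cc.d u = 0) (hv : Cc.d v = 0) :
    Cc.cup 1 u v + Cc.cup 1 v u = Cc.d (Cc.cup 2 u v) := by
  have h := TJ.d_cup 1 u v
  rw [hu, hv, cup_zero_left, cup_zero_right, zero_add, zero_add] at h
  exact h.symm

theorem Int_cup_comm (hd : 0 < d) {c : C(Sph (d + (i + 1)), TT (i + 1) M)} (hc : c ∞ = ∞)
    {u v : Cc (sing M)} {r : ℕ} (hu : Cc.d u = 0) (hv : Cc.d v = 0)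
    (h1 : Cc.IsDeg r (Cc.cup 1 u v)) (h2 : Cc.IsDeg r (Cc.cup 1 v u))
    (d1 : Cc.d (Cc.cup 1 u v) = 0) (d2 : Cc.d (Cc.cup 1 v u) = 0) :
    Int c h1 d1 = Int c h2 d2 :=
  Int_coh hd hc h1 d1 h2 d2 (coh_iff.2 ⟨_, cup1_comm hu hv⟩)

/-- the quadratic form of a stable map -/
noncomputable def QF.ofC (hq0 : 0 < q) (hqd : q < d) (c : C(Sph (d + (i + 1)), TT (i + 1) M))
    (hc : c ∞ = ∞)
    (hn : ∀ (u : Cc (sing M)) (hu : Cc.IsDeg q u) (du : Cc.d u = 0), (¬ ∃ a, u = Cc.d a) →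
      ∃ (v : Cc (sing M)) (hv : Cc.IsDeg q v) (dv : Cc.d v = 0),
        Int c (isDeg_cup1 hv hu) (d_cup1_zero dv du) ≠ 0) : QF M q where
  F _ hu du := Phi c hc hu du
  I _ hu du := Int c hu du
  F_coh _ _ hu hv du dv a ha := Phi_coh (by omega) hu du hv dv (coh_iff.2 ⟨a, ha⟩)
  I_coh _ _ hu hv du dv a ha := Int_coh (by omega) hc hu du hv dv (coh_iff.2 ⟨a, ha⟩)
  I_add _ _ hu hv du dv := Int_add (by omega) hc hu du hv dv _ _
  F_add _ _ hu hv du dv := Phi_add hq0 hqd hu du hv dv _ _ _ _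
  nonsing := hn

end

/-- transport of `PhiZero` along a homeomorphism -/
theorem PhiZero.iso {m n q : ℕ} {N N' : TopCat.{0}} (e : N ≅ N') {c : ST.Sph m ⟶ Th n N}
    {x : Coh q N} (h : PhiZero c x) {c' : ST.Sph m ⟶ Th n N'}
    (hc' : ∀ z, c' z = Th.fmap e.hom (c z)) : PhiZero c' (Coh.pull e.inv x) := by
  obtain ⟨Y, f, y, y₀, h1, h2, h3, h4⟩ := h
  refine ⟨Y, e.inv ≫ f, y, y₀, h1, h2, ?_, ?_⟩
  · rw [coh_pull_comp, h3]
  · have e1 : ∀ w : N, (e.inv ≫ f) (e.hom w) = f w := fun w => by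
      have h5 : e.inv (e.hom w) = w := by
        have := ConcreteCategory.congr_hom e.hom_inv_id w
        exact this
      show f (e.inv (e.hom w)) = f w
      rw [h5]
    have e2 : (fun z => Th.fmap (e.inv ≫ f) (c' z)) = fun z => Th.fmap f (c z) := by
      funext z
      rw [hc']
      generalize c z = a
      induction a using OnePoint.rec with
      | infty => rfl
      | coe p =>
        show OnePoint.some (p.1, (e.inv ≫ f) (e.hom p.2)) = OnePoint.some (p.1, f p.2)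
        rw [e1]
    have e3 : (fun z => Th.fmap (fun _ : N' => y₀) (c' z)) = fun z => Th.fmap (fun _ => y₀) (c z) := by
      funext z
      rw [hc']
      generalize c z = a
      induction a using OnePoint.rec with
      | infty => rfl
      | coe p => rfl
    rw [e2, e3]
    exact h4

section

variable {M : Type} [TopologicalSpace M] [CompactSpace M] [T2Space M] {d i q : ℕ}

/-- **The count of the classes with `φ = 0`.** -/
theorem count_of_form [Finite (Coh q (TopCat.of M))] (hq0 : 0 < q) (hqd : q < d)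
    {c : C(Sph (d + (i + 1)), TT (i + 1) M)} (hc : c ∞ = ∞)
    (hn : ∀ (u : Cc (sing M)) (hu : Cc.IsDeg q u) (du : Cc.d u = 0), (¬ ∃ a, u = Cc.d a) →
      ∃ (v : Cc (sing M)) (hv : Cc.IsDeg q v) (dv : Cc.d v = 0),
        Int c (isDeg_cup1 hv hu) (d_cup1_zero dv du) ≠ 0)
    {w : Cc (sing M)} (hw : Cc.IsDeg q w) (dw : Cc.d w = 0) (h1 : Phi c hc hw dw = 1)
    {N : Type} [TopologicalSpace N] [CompactSpace N] [T2Space N]
    (e : TopCat.of N ≅ TopCat.of (M × Bool)) {cN : C(Sph (d + (i + 1)), TT (i + 1) N)}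
    (hcN : cN ∞ = ∞) {cG : C(Sph (d + (i + 1)), TT (i + 1) (M × Bool))} (hcG : cG ∞ = ∞)
    (hcol : ((thm (show C(N, M × Bool) from e.hom.hom)).comp cN).HomotopicRel cG {∞})
    (hform : ∀ (z : Cc (sing (M × Bool))) (hz : Cc.IsDeg q z) (dz : Cc.d z = 0)
      (h0 : Cc.IsDeg q (Cc.pull (singMap (inB true)) z))
      (d0 : Cc.d (Cc.pull (singMap (inB true)) z) = 0)
      (h1 : Cc.IsDeg q (Cc.pull (singMap (inB false)) z))
      (d1 : Cc.d (Cc.pull (singMap (inB false)) z) = 0),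
      Phi cG hcG hz dz = Phi c hc h0 d0 + Phi c hc h1 d1 +
        Int c (isDeg_cup1 h1 hw) (d_cup1_zero d1 dw))
    {P : Coh q (TopCat.of N) → Prop}
    (hP : ∀ x, P x → ∀ (v : Cc (sing N)) (hv : Cc.IsDeg q v) (dv : Cc.d v = 0),
      cl (X := TopCat.of N) q v dv = x → Phi cN hcN hv dv = 0) :
    Finite (Coh q (TopCat.of N)) ∧
      Nat.card (Coh q (TopCat.of N)) < 2 * Nat.card {x : Coh q (TopCat.of N) // ¬ P x} := by
  have hd : 0 < d := by omega
  refine (QF.ofC hq0 hqd c hc hn).majority hw dw h1 e fun x z hz dz hx hPx => ?_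
  obtain ⟨g, hg⟩ : ∃ g : C(N, M × Bool), g = e.hom.hom := ⟨_, rfl⟩
  have hv : Cc.IsDeg q (Cc.pull (singMap g) (glB z)) := (isDeg_glB hz).pull _
  have dv : Cc.d (Cc.pull (singMap g) (glB z)) = 0 := by rw [← pull_d, d_glB_zero dz, pull_zero]
  have hcl : cl (X := TopCat.of N) q (Cc.pull (singMap g) (glB z)) dv = x := by
    have h2 : Coh.pull e.hom (Coh.pull e.inv x) = x := by
      rw [← coh_pull_comp, Iso.hom_inv_id, coh_pull_id]
    rw [← h2, hx]
    subst hg
    exact (pull_cl e.hom (glB z) (d_glB_zero dz) dv).symm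
  have h3 := hP x hPx _ hv dv hcl
  have hgc : ((thm (K := i + 1) g).comp cN) ∞ = ∞ := by
    show thm g (cN ∞) = ∞
    rw [hcN]
    rfl
  have h4 : Phi ((thm g).comp cN) hgc (isDeg_glB hz) (d_glB_zero dz) = 0 :=
    (Phi_nat g hd (isDeg_glB hz) (d_glB_zero dz) hv dv).trans h3
  have hcol' : ((thm g).comp cN).HomotopicRel cG {∞} := by
    rw [hg]
    exact hcol
  have h5 := Phi_htpy (hc := hgc) (hc' := hcG) hd hcol' (isDeg_glB hz) (d_glB_zero dz)
  rw [h4, hform (glB z) (isDeg_glB hz) (d_glB_zero dz) (hz true) (dz true) (hz false)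
    (dz false)] at h5
  exact h5.symm

end

end Vale.Agent.P263.FR
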