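import Vale.Agent.P263.FR.Sus
import Vale.Agent.P263.FR.PhiB

/-!
# P263, V5: suspension invariance of the integral

`Int_sus0` : the integral of a suspended map (suspension coordinate first).
-/

open Finset OnePoint Topology

namespace Vale.Agent.P263.FR

open Vale.Agent.P263.S hiding sn sn_add
open Vale.Agent.P263.E Vale.Agent.P263.H83 Vale.Agent.P263.G2 Vale.Agent.P263.TJ
open Vale.Agent.P263.T0 CupC

variable {P : Type} [TopologicalSpace P] [CompactSpace P] [T2Space P] {d i q : ℕ}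

/-- **Suspension invariance of the integral.** -/
theorem Int_sus0 (hd : 0 < d) {c : C(Sph (d + (i + 1)), TT (i + 1) P)} (hc : c ∞ = ∞)
    {c2 : C(Sph (d + (i + 2)), TT (i + 2) P)}
    (h : ∀ (y : Sph d) (s : OnePoint ℝ) (w : Sph (i + 1)),
      c2 (join2 y (consS s w)) = consT s (c (join2 y w)))
    {x : Cc (sing P)} (hq : Cc.IsDeg q x) (hx : Cc.d x = 0) :
    Int (i := i + 1) c2 hq hx = Int c hq hx := by
  obtain ⟨D'', hb, -⟩ := desus (T₀ := bsT (i + 1) P) (sU (i + 1) P)
    (fun z h => sU_base z h) (fun z h => sU_ends z h) (jR (i + 1) hq hx)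
  have h1 : (cu c2).comp (consM (sing (Sph d)) (i + 1)) = (sU (i + 1) P).comp (xD (cu c)) := by
    apply SS.Map.ext
    intro p z
    apply ContinuousMap.ext
    intro t
    obtain ⟨⟨y, τ⟩, χ⟩ := z
    exact (congrArg (fun v => c2 (join2 (toC y t) v)) (cxC_cons χ τ t)).trans (h _ _ _)
  have h5 : DstN (i + 1) (Cc.pull (muT (i + 1) P) D''.b) =
      DstN (i + 2) (Cc.pull (muT (i + 2) P) (jR (i + 1) hq hx).b) := by
    have h6 : DstN (i + 2) (Cc.pull (muT (i + 2) P) (jR (i + 1) hq hx).b) =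
      DstN (i + 1) (Dst (Cc.pull ((muT (i + 2) P).comp (consM (sing P) (i + 1)))
        (jR (i + 1) hq hx).b)) := rfl
    rw [h6, muT_cons, hb, ← Dst_pull]
    rfl
  have h7 : DstN (i + 1) (Cc.pull (cu c) D''.b) =
      DstN (i + 2) (Cc.pull (cu c2) (jR (i + 1) hq hx).b) := by
    have h6 : DstN (i + 2) (Cc.pull (cu c2) (jR (i + 1) hq hx).b) =
      DstN (i + 1) (Dst (Cc.pull ((cu c2).comp (consM (sing (Sph d)) (i + 1)))
        (jR (i + 1) hq hx).b)) := rfl
    rw [h6, h1, hb, ← Dst_pull]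
    rfl
  have h8 := Int_of (c := c) hd hc D''.vn_b D''.d_b hq hx (by
    rw [h5]
    exact DstN_jR hq hx)
  rw [← h8, h7]
  rfl

end Vale.Agent.P263.FR
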